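import Vale.Agent.P141.H922.PairW

/-!
# P141, line W: the weight `W_g` (212's row 7126): definitions

`v2 Q f g` = average of `f² g²`;
`pG Q u = (n2 12 · n2 13 · n2 23)^(1/3) (v2 12 13 · v2 12 23 · v2 13 23)^(1/6)`;
`wG δ Q u = δ |Q| pG Q u`.
-/

namespace Vale.Agent.P141.H238

open Finset
open Vale.Agent.P141.PL.H315 (avg avg_nonneg e12 e13 e23 Tri)
open Vale.Agent.P141.H922 (n2 n2_nonneg)

noncomputable section

variable {X : Type*}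

/-- the average of `f² g²` -/
def v2 (Q : Finset X) (f g : X → ℝ) : ℝ := avg Q fun y => f y ^ 2 * g y ^ 2

theorem v2_nonneg (Q : Finset X) (f g : X → ℝ) : 0 ≤ v2 Q f g :=
  avg_nonneg fun _ _ => mul_nonneg (sq_nonneg _) (sq_nonneg _)

theorem v2_comm (Q : Finset X) (f g : X → ℝ) : v2 Q f g = v2 Q g f := by
  unfold v2
  congr 1
  funext y
  ring

/-- the density of the weight `wG` -/
def pG (Q : Finset (ℤ × ℤ × ℤ)) (u : Tri) : ℝ :=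
  (n2 Q (e12 u.1) * n2 Q (e13 u.2.1) * n2 Q (e23 u.2.2)) ^ (1 / 3 : ℝ) *
    (v2 Q (e12 u.1) (e13 u.2.1) * v2 Q (e12 u.1) (e23 u.2.2) *
      v2 Q (e13 u.2.1) (e23 u.2.2)) ^ (1 / 6 : ℝ)

theorem pG_nonneg (Q : Finset (ℤ × ℤ × ℤ)) (u : Tri) : 0 ≤ pG Q u := by
  unfold pG
  have := n2_nonneg Q (e12 u.1)
  have := n2_nonneg Q (e13 u.2.1)
  have := n2_nonneg Q (e23 u.2.2)
  have := v2_nonneg Q (e12 u.1) (e13 u.2.1)
  have := v2_nonneg Q (e12 u.1) (e23 u.2.2)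
  have := v2_nonneg Q (e13 u.2.1) (e23 u.2.2)
  positivity

/-- **the weight `W_g`** of an atom on a finite set -/
def wG (δ : ℝ) (Q : Finset (ℤ × ℤ × ℤ)) (u : Tri) : ℝ := δ * Q.card * pG Q u

theorem wG_nonneg {δ : ℝ} (hδ : 0 ≤ δ) (Q : Finset (ℤ × ℤ × ℤ)) (u : Tri) : 0 ≤ wG δ Q u :=
  mul_nonneg (mul_nonneg hδ (Nat.cast_nonneg _)) (pG_nonneg Q u)

theorem wG_mul (δ δ' : ℝ) (Q : Finset (ℤ × ℤ × ℤ)) (u : Tri) :
    wG (δ * δ') Q u = δ * wG δ' Q u := by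
  unfold wG; ring

theorem wG_eq (δ : ℝ) (Q : Finset (ℤ × ℤ × ℤ)) (u : Tri) : wG δ Q u = δ * wG 1 Q u := by
  unfold wG; ring

end

end Vale.Agent.P141.H238
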