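import Vale.Agent.P141.H238.NondG
import Vale.Agent.P141.H922.PairSys

/-!
# P141, line W, weight `W_g`: the scalar system and the total system

Parallel to `H922/PairSys`.  Inputs: superadditivity `SuperG` (115) and the mixed glue `GlueG Cg`
(419) of the weight `wG`.

* `sysG`: tests `a1 c`, weights `wG δ (cube3 k i.1) i.2`, inheritance constant `2`;
* `mix_sysG`: mixed inheritance, constant `Cg`;
* `sysGT = sumS (sysG ..) P.toC`: the total system; `mix_sysGT`, `lwGT`, `unifGT`, `unifGT_gen`.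
-/

namespace Vale.Agent.P141.H238

open Finset
open Vale.Agent.P141.H315 (Grid dot dot_self_nonneg)
open Vale.Agent.P141.PL (Pt el)
open Vale.Agent.P141.PL.H315 (cube3 mem_cube3 gz card_cube3 avg iv mem_iv e12 e13 e23 Tri mx atm)
open Vale.Agent.P141.PL.H95 (gr mem_gr card_gr)
open Vale.Agent.P141.PL.H318
open Vale.Agent.P141.H347 (LW Fam)
open Vale.Agent.P141.H297 (Mix)
open Vale.Agent.P141.H736 (sumS sumLW PSys)
open Vale.Agent.P141.H922 (Mix.mono mix_sum mix_psys cube_unif_coarse_w cube_unif_w)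

noncomputable section

/-- superadditivity of `wG` along the tree, constant `1` -/
def SuperG : Prop := ∀ {δ : ℝ}, 0 ≤ δ → ∀ {k l : ℕ}, k ≤ l → ∀ (p : Pt) (u : Tri),
  ∑ z ∈ cube3 l p, (8 ^ k : ℝ)⁻¹ * wG δ (cube3 k z) u ≤ wG δ (cube3 l p) u

open Classical in
/-- the mixed glue of `wG`, constant `Cg`: the statement of `glueP_dot` -/
def GlueG (Cg : ℝ) : Prop := ∀ {c0 : ℕ} {σ : ℤ} {c : Pt}, csz c ≤ 2 ^ c0 → ∀ {δ : ℝ}, 0 ≤ δ →
  ∀ {l : ℕ} {x0 : ℤ} {m : ℤ → ℕ} {A : ℤ → Prop},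
  (∀ x ∈ (gr c0 σ).cube l x0, ∀ y, A x → ixs c0 σ (m x) y = ixs c0 σ (m x) x →
      A y ∧ m y = m x) →
  (∀ x ∈ (gr c0 σ).cube l x0, A x → m x ≤ l) → ∀ {G : ℤ → ℝ} (q : Pt) (u : Tri),
  (∀ x ∈ (gr c0 σ).cube l x0, A x → ∀ z ∈ cube3 l q,
      |dot ((gr c0 σ).cube (m x) x) G (a1 c (m x) (z, u))| ≤ wG δ (cube3 (m x) z) u) →
  |dot ((gr c0 σ).cube l x0) (fun y => if A y then G y else 0) (a1 c l (q, u))| ≤
    Cg * wG δ (cube3 l q) u

/-- **The scalar system with the weight `W_g`.** -/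
def sysG (hs : SuperG) (c0 : ℕ) (σ : ℤ) (c : Pt) (hc : csz c ≤ 2 ^ c0) (δ : ℝ) (hδ : 0 < δ) :
    CSys (gr c0 σ) (Pt × Tri) where
  a := a1 c
  W := fun k _ i => wG δ (cube3 k i.1) i.2
  W_nonneg := fun k _ i => wG_nonneg hδ.le _ _
  nondeg := fun k x => nondeg_a1_G hδ c k _
  C := 2
  C_nonneg := by norm_num
  inherit := by
    intro k l hkl x i G hG
    rw [dot_a1]
    have h2 := cube_unif_coarse_w (C := 2) (u := i.2) (w := fun z => wG δ (cube3 k z) i.2)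
      hkl (by norm_num) (φ := fun y => @ite _ (el c y ∈ (gr c0 σ).cube l x)
        (Classical.propDecidable _) (G (el c y)) 0) i.1
      (fun q _ => cube_unif_w (c0 := c0) (σ := σ) hc k (G := G)
        (A := fun s => s ∈ (gr c0 σ).cube l x)
        (by
          intro s s' hs
          have h3 : s' ∈ (gr c0 σ).cube k s := mem_gs.mpr hs
          have h4 : s' ∈ (gr c0 σ).cube l s := (gr c0 σ).sub_le hkl s h3
          rw [mem_gs, mem_gs, mem_gs.mp h4])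
        q i.2 (wG_nonneg hδ.le _ _)
        (fun s hs => hG s hs (q, i.2)))
      (hs hδ.le hkl i.1 i.2)
    refine le_trans (le_of_eq ?_) h2
    congr 1
    refine Finset.sum_congr rfl fun y _ => ?_
    by_cases h : el c y ∈ (gr c0 σ).cube l x
    · simp [h]
    · simp [h]

section

variable (hs : SuperG) (c0 : ℕ) (σ : ℤ) (c : Pt) (hc : csz c ≤ 2 ^ c0) (δ : ℝ) (hδ : 0 < δ)

@[simp] theorem sysG_a (k : ℕ) (i : Pt × Tri) : (sysG hs c0 σ c hc δ hδ).a k i = a1 c k i := rfl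

@[simp] theorem sysG_W (k : ℕ) (Q : Finset ℤ) (i : Pt × Tri) :
    (sysG hs c0 σ c hc δ hδ).W k Q i = wG δ (cube3 k i.1) i.2 := rfl

/-- **mixed inheritance of the system `sysG`** -/
theorem mix_sysG {Cg : ℝ} (hg : GlueG Cg) : Mix (sysG hs c0 σ c hc δ hδ) Cg := by
  classical
  intro l x m F g1 g2 g3 i
  have h := hg hc hδ.le (l := l) (x0 := x) (m := m)
    (A := fun _ => True)
    (fun y hy z _ hz => ⟨trivial, g2 y hy z (mem_gs.2 hz)⟩)
    (fun y hy _ => g1 y hy) (G := F) i.1 i.2 (fun y hy _ z _ => g3 y hy (z, i.2))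
  simpa using h

open Classical in
/-- mixed glue on a part of a cell -/
theorem glueGs_dot {Cg : ℝ} (hg : GlueG Cg) {l : ℕ} {x0 : ℤ} {m : ℤ → ℕ} {A : ℤ → Prop}
    (hm : ∀ x ∈ (gr c0 σ).cube l x0, ∀ y, A x → ixs c0 σ (m x) y = ixs c0 σ (m x) x →
      A y ∧ m y = m x)
    (hml : ∀ x ∈ (gr c0 σ).cube l x0, A x → m x ≤ l) {F : ℤ → ℝ}
    (h : ∀ x ∈ (gr c0 σ).cube l x0, A x → ∀ i,
      |dot ((gr c0 σ).cube (m x) x) F ((sysG hs c0 σ c hc δ hδ).a (m x) i)| ≤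
        (sysG hs c0 σ c hc δ hδ).W (m x) ((gr c0 σ).cube (m x) x) i)
    (i : Pt × Tri) :
    |dot ((gr c0 σ).cube l x0) (fun y => if A y then F y else 0)
        ((sysG hs c0 σ c hc δ hδ).a l i)| ≤
      Cg * (sysG hs c0 σ c hc δ hδ).W l ((gr c0 σ).cube l x0) i :=
  hg hc hδ.le hm hml (G := F) i.1 i.2 (fun x hx hA z _ => h x hx hA (z, i.2))

variable {ι : Type*}

/-- **The total system**: the system `sysG` and a packed system. -/
def sysGT (P : PSys (gr c0 σ) ι) : CSys (gr c0 σ) ((Pt × Tri) ⊕ ι) :=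
  sumS (sysG hs c0 σ c hc δ hδ) P.toC

/-- **mixed inheritance of the total system** -/
theorem mix_sysGT {Cg : ℝ} (hg : GlueG Cg) (P : PSys (gr c0 σ) ι) {C : ℝ} (hC : Cg ≤ C)
    (hC' : P.C ≤ C) : Mix (sysGT hs c0 σ c hc δ hδ P) C :=
  mix_sum (Mix.mono (mix_sysG hs c0 σ c hc δ hδ hg) hC) (Mix.mono (mix_psys P) hC')

/-- its local weights -/
def lwGT (w : LW (sysG hs c0 σ c hc δ hδ)) (P : PSys (gr c0 σ) ι) :
    LW (sysGT hs c0 σ c hc δ hδ P) :=
  sumLW w P.lw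

/-- uniformity for the total system: the scalar tests -/
theorem unifGT (P : PSys (gr c0 σ) ι) {k : ℕ} {Q : Finset ℤ} {F : ℤ → ℝ}
    (h : ∀ i, |dot Q F ((sysGT hs c0 σ c hc δ hδ P).a k i)| ≤
      (sysGT hs c0 σ c hc δ hδ P).W k Q i) (q : Pt) (u : Tri) :
    |dot Q F (a1 c k (q, u))| ≤ wG δ (cube3 k q) u :=
  h (Sum.inl (q, u))

/-- uniformity for the total system: the packed tests -/
theorem unifGT_gen (P : PSys (gr c0 σ) ι) {k : ℕ} {Q : Finset ℤ} {F : ℤ → ℝ}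
    (h : ∀ i, |dot Q F ((sysGT hs c0 σ c hc δ hδ P).a k i)| ≤
      (sysGT hs c0 σ c hc δ hδ P).W k Q i) (i : ι) (hi : P.live k i) :
    |dot Q F (P.ψ i)| ≤ P.W k Q i := by
  have h1 := h (Sum.inr i)
  change |dot Q F (P.toC.a k i)| ≤ P.W k Q i at h1
  rwa [P.toC_a, if_pos hi] at h1

end

end

end Vale.Agent.P141.H238
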