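import Vale.Agent.P141.H347.TrP
import Vale.Agent.P141.H238.GDef

/-!
# P141: the weight `W_g` as a weight functional (`Wf`)

* `avg_sh_le`: averages under a common translation and cut;
* `v2_uq12`, `v2_uq13`, `v2_uq23`: the averages `v2` of the translated and cut edges;
* `wf_wG`.
-/

namespace Vale.Agent.P141.H238

open Finset Vale.Agent.P141.PL Vale.Agent.P141.PL.H560
open Vale.Agent.P141.PL.H321 (t12 t23 u12 u23)
open Vale.Agent.P141.H922 (n2 n2_nonneg)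
open Vale.Agent.P141.H347.Tr (Wf n2_e12 n2_e13 n2_e23 n2_cs_le card_iv2 n2_t12 n2_t23)

noncomputable section

/-- averages under a common translation and cut -/
theorem avg_sh_le (c : LF) (K : ℕ) (x y : Pt) (q : ℤ × ℤ) {φ ψ : Pt → ℝ} (hφ : ∀ p, 0 ≤ φ p)
    (h1 : ∀ p, sh c q.1 q.2 p ∈ H315.cube3 K x → ψ p ≤ φ (sh c q.1 q.2 p))
    (h0 : ∀ p, sh c q.1 q.2 p ∉ H315.cube3 K x → ψ p ≤ 0) :
    H315.avg (H315.cube3 K y) ψ ≤ H315.avg (H315.cube3 K x) φ := by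
  classical
  unfold H315.avg
  rw [H315.card_cube3, H315.card_cube3]
  refine mul_le_mul_of_nonneg_left ?_ (by positivity)
  calc ∑ p ∈ H315.cube3 K y, ψ p
      ≤ ∑ p ∈ H315.cube3 K y, if sh c q.1 q.2 p ∈ H315.cube3 K x then
          φ (sh c q.1 q.2 p) else 0 := by
        refine sum_le_sum fun p _ => ?_
        split_ifs with h
        · exact h1 p h
        · exact h0 p h
    _ = ∑ p ∈ (H315.cube3 K y).filter (fun p => sh c q.1 q.2 p ∈ H315.cube3 K x),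
          φ (sh c q.1 q.2 p) := (sum_filter _ _).symm
    _ = ∑ p ∈ ((H315.cube3 K y).filter (fun p => sh c q.1 q.2 p ∈ H315.cube3 K x)).image
          (sh c q.1 q.2), φ p := by
        rw [sum_image]
        intro p _ p' _ hpp
        unfold sh at hpp
        simp only [Prod.mk.injEq, add_left_inj] at hpp
        exact Prod.ext hpp.1 (Prod.ext hpp.2.1 hpp.2.2)
    _ ≤ _ := by
        refine sum_le_sum_of_subset_of_nonneg ?_ fun p _ _ => hφ p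
        intro p hp
        rw [mem_image] at hp
        obtain ⟨p', hp', rfl⟩ := hp
        exact (mem_filter.mp hp').2

section

variable (c : LF) (K : ℕ) (x : Pt) (u : H315.Tri) (q : ℤ × ℤ) (p : Pt)

theorem mem_parts : sh c q.1 q.2 p ∈ H315.cube3 K x ↔
    p.1 + h1 c q.1 q.2 ∈ iv K (cx K x).1 ∧ p.2.1 + q.1 ∈ iv K (cx K x).2.1 ∧
      p.2.2 + q.2 ∈ iv K (cx K x).2.2 := by
  rw [cube3_eq]
  unfold cb sh
  rw [mem_product, mem_product]

theorem uq12_of_mem (h : p.1 + h1 c q.1 q.2 ∈ iv K (cx K x).1) (h' : p.2.1 + q.1 ∈ iv K (cx K x).2.1) :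
    H315.e12 (uq c K (cx K x) u q).1 p = H315.e12 u.1 (sh c q.1 q.2 p) := by
  unfold H315.e12 uq sh
  exact cs_of_mem (w := (p.1, p.2.1)) (mem_product.2 ⟨h, h'⟩)

theorem uq13_of_mem (h : p.1 + h1 c q.1 q.2 ∈ iv K (cx K x).1) (h' : p.2.2 + q.2 ∈ iv K (cx K x).2.2) :
    H315.e13 (uq c K (cx K x) u q).2.1 p = H315.e13 u.2.1 (sh c q.1 q.2 p) := by
  unfold H315.e13 uq sh
  exact cs_of_mem (w := (p.1, p.2.2)) (mem_product.2 ⟨h, h'⟩)

theorem uq23_of_mem (h : p.2.1 + q.1 ∈ iv K (cx K x).2.1) (h' : p.2.2 + q.2 ∈ iv K (cx K x).2.2) :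
    H315.e23 (uq c K (cx K x) u q).2.2 p = H315.e23 u.2.2 (sh c q.1 q.2 p) := by
  unfold H315.e23 uq sh
  exact cs_of_mem (w := (p.2.1, p.2.2)) (mem_product.2 ⟨h, h'⟩)

theorem uq12_of_not (h : ¬ (p.1 + h1 c q.1 q.2 ∈ iv K (cx K x).1 ∧
    p.2.1 + q.1 ∈ iv K (cx K x).2.1)) : H315.e12 (uq c K (cx K x) u q).1 p = 0 := by
  unfold H315.e12 uq
  exact cs_of_not_mem (w := (p.1, p.2.1)) fun hh => h (mem_product.1 hh)

theorem uq13_of_not (h : ¬ (p.1 + h1 c q.1 q.2 ∈ iv K (cx K x).1 ∧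
    p.2.2 + q.2 ∈ iv K (cx K x).2.2)) : H315.e13 (uq c K (cx K x) u q).2.1 p = 0 := by
  unfold H315.e13 uq
  exact cs_of_not_mem (w := (p.1, p.2.2)) fun hh => h (mem_product.1 hh)

theorem uq23_of_not (h : ¬ (p.2.1 + q.1 ∈ iv K (cx K x).2.1 ∧
    p.2.2 + q.2 ∈ iv K (cx K x).2.2)) : H315.e23 (uq c K (cx K x) u q).2.2 p = 0 := by
  unfold H315.e23 uq
  exact cs_of_not_mem (w := (p.2.1, p.2.2)) fun hh => h (mem_product.1 hh)

end

variable (c : LF) (K : ℕ) (x y : Pt) (u : H315.Tri) (q : ℤ × ℤ)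

theorem v2_uq12 : v2 (H315.cube3 K y) (H315.e12 (uq c K (cx K x) u q).1)
      (H315.e13 (uq c K (cx K x) u q).2.1) ≤
    v2 (H315.cube3 K x) (H315.e12 u.1) (H315.e13 u.2.1) := by
  unfold v2
  refine avg_sh_le c K x y q (fun p => mul_nonneg (sq_nonneg _) (sq_nonneg _)) ?_ ?_
  · intro p hp
    obtain ⟨h1', h2', h3'⟩ := (mem_parts c K x q p).1 hp
    rw [uq12_of_mem c K x u q p h1' h2', uq13_of_mem c K x u q p h1' h3']
  · intro p hp
    rw [mem_parts] at hp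
    by_cases h : p.1 + h1 c q.1 q.2 ∈ iv K (cx K x).1 ∧ p.2.1 + q.1 ∈ iv K (cx K x).2.1
    · rw [uq13_of_not c K x u q p fun h' => hp ⟨h.1, h.2, h'.2⟩]
      norm_num
    · rw [uq12_of_not c K x u q p h]
      norm_num

theorem v2_uq13 : v2 (H315.cube3 K y) (H315.e12 (uq c K (cx K x) u q).1)
      (H315.e23 (uq c K (cx K x) u q).2.2) ≤
    v2 (H315.cube3 K x) (H315.e12 u.1) (H315.e23 u.2.2) := by
  unfold v2
  refine avg_sh_le c K x y q (fun p => mul_nonneg (sq_nonneg _) (sq_nonneg _)) ?_ ?_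
  · intro p hp
    obtain ⟨h1', h2', h3'⟩ := (mem_parts c K x q p).1 hp
    rw [uq12_of_mem c K x u q p h1' h2', uq23_of_mem c K x u q p h2' h3']
  · intro p hp
    rw [mem_parts] at hp
    by_cases h : p.1 + h1 c q.1 q.2 ∈ iv K (cx K x).1 ∧ p.2.1 + q.1 ∈ iv K (cx K x).2.1
    · rw [uq23_of_not c K x u q p fun h' => hp ⟨h.1, h.2, h'.2⟩]
      norm_num
    · rw [uq12_of_not c K x u q p h]
      norm_num

theorem v2_uq23 : v2 (H315.cube3 K y) (H315.e13 (uq c K (cx K x) u q).2.1)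
      (H315.e23 (uq c K (cx K x) u q).2.2) ≤
    v2 (H315.cube3 K x) (H315.e13 u.2.1) (H315.e23 u.2.2) := by
  unfold v2
  refine avg_sh_le c K x y q (fun p => mul_nonneg (sq_nonneg _) (sq_nonneg _)) ?_ ?_
  · intro p hp
    obtain ⟨h1', h2', h3'⟩ := (mem_parts c K x q p).1 hp
    rw [uq13_of_mem c K x u q p h1' h3', uq23_of_mem c K x u q p h2' h3']
  · intro p hp
    rw [mem_parts] at hp
    by_cases h : p.1 + h1 c q.1 q.2 ∈ iv K (cx K x).1 ∧ p.2.2 + q.2 ∈ iv K (cx K x).2.2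
    · rw [uq23_of_not c K x u q p fun h' => hp ⟨h.1, h'.1, h.2⟩]
      norm_num
    · rw [uq13_of_not c K x u q p h]
      norm_num

theorem pG_uq_le : pG (H315.cube3 K y) (uq c K (cx K x) u q) ≤ pG (H315.cube3 K x) u := by
  unfold pG
  have b1 : n2 (H315.cube3 K y) (H315.e12 (uq c K (cx K x) u q).1) ≤
      n2 (H315.cube3 K x) (H315.e12 u.1) := by
    rw [n2_e12, n2_e12]; exact n2_cs_le (card_iv2 _ _ _ _ _) _ _
  have b2 : n2 (H315.cube3 K y) (H315.e13 (uq c K (cx K x) u q).2.1) ≤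
      n2 (H315.cube3 K x) (H315.e13 u.2.1) := by
    rw [n2_e13, n2_e13]; exact n2_cs_le (card_iv2 _ _ _ _ _) _ _
  have b3 : n2 (H315.cube3 K y) (H315.e23 (uq c K (cx K x) u q).2.2) ≤
      n2 (H315.cube3 K x) (H315.e23 u.2.2) := by
    rw [n2_e23, n2_e23]; exact n2_cs_le (card_iv2 _ _ _ _ _) _ _
  have a1 := v2_uq12 c K x y u q
  have a2 := v2_uq13 c K x y u q
  have a3 := v2_uq23 c K x y u q
  have m : ∀ {a b c a' b' c' : ℝ}, 0 ≤ b → 0 ≤ c → 0 ≤ a' → 0 ≤ b' → a ≤ a' → b ≤ b' → c ≤ c' →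
      a * b * c ≤ a' * b' * c' := fun hb hc ha' hb' h1 h2 h3 =>
    mul_le_mul (mul_le_mul h1 h2 hb ha') h3 hc (mul_nonneg ha' hb')
  have k1 := m (n2_nonneg _ _) (n2_nonneg _ _) (n2_nonneg _ _) (n2_nonneg _ _) b1 b2 b3
  have k2 := m (v2_nonneg _ _ _) (v2_nonneg _ _ _) (v2_nonneg _ _ _) (v2_nonneg _ _ _) a1 a2 a3
  have k3 : ∀ (Q : Finset Pt) (f g h : Pt → ℝ), 0 ≤ n2 Q f * n2 Q g * n2 Q h := fun Q f g h =>
    mul_nonneg (mul_nonneg (n2_nonneg _ _) (n2_nonneg _ _)) (n2_nonneg _ _)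
  have k4 : ∀ (Q : Finset Pt) (f g h : Pt → ℝ), 0 ≤ v2 Q f g * v2 Q f h * v2 Q g h :=
    fun Q f g h => mul_nonneg (mul_nonneg (v2_nonneg _ _ _) (v2_nonneg _ _ _)) (v2_nonneg _ _ _)
  exact mul_le_mul (Real.rpow_le_rpow (k3 _ _ _ _) k1 (by norm_num))
    (Real.rpow_le_rpow (k4 _ _ _ _) k2 (by norm_num)) (Real.rpow_nonneg (k4 _ _ _ _) _)
    (Real.rpow_nonneg (k3 _ _ _ _) _)

theorem v2_t12 (l : ℕ) (p : Pt) (f g : Pt → ℝ) :
    v2 (H315.cube3 l p) (fun q => f (t12 q)) (fun q => g (t12 q)) =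
      v2 (H315.cube3 l (t12 p)) f g :=
  H321.avg_t12 l p (fun q => f q ^ 2 * g q ^ 2)

theorem v2_t23 (l : ℕ) (p : Pt) (f g : Pt → ℝ) :
    v2 (H315.cube3 l p) (fun q => f (t23 q)) (fun q => g (t23 q)) =
      v2 (H315.cube3 l (t23 p)) f g :=
  H321.avg_t23 l p (fun q => f q ^ 2 * g q ^ 2)

theorem pG_t12 (K : ℕ) (p : Pt) (u : H315.Tri) :
    pG (H315.cube3 K (t12 p)) (u12 u) = pG (H315.cube3 K p) u := by
  unfold pG
  rw [← n2_t12, ← n2_t12, ← n2_t12, ← v2_t12, ← v2_t12, ← v2_t12]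
  have h1 : (fun q => H315.e12 (u12 u).1 (t12 q)) = H315.e12 u.1 := rfl
  have h2 : (fun q => H315.e13 (u12 u).2.1 (t12 q)) = H315.e23 u.2.2 := rfl
  have h3 : (fun q => H315.e23 (u12 u).2.2 (t12 q)) = H315.e13 u.2.1 := rfl
  rw [h1, h2, h3, v2_comm _ (H315.e23 u.2.2) (H315.e13 u.2.1)]
  congr 2 <;> ring

theorem pG_t23 (K : ℕ) (p : Pt) (u : H315.Tri) :
    pG (H315.cube3 K (t23 p)) (u23 u) = pG (H315.cube3 K p) u := by
  unfold pG
  rw [← n2_t23, ← n2_t23, ← n2_t23, ← v2_t23, ← v2_t23, ← v2_t23]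
  have h1 : (fun q => H315.e12 (u23 u).1 (t23 q)) = H315.e13 u.2.1 := rfl
  have h2 : (fun q => H315.e13 (u23 u).2.1 (t23 q)) = H315.e12 u.1 := rfl
  have h3 : (fun q => H315.e23 (u23 u).2.2 (t23 q)) = H315.e23 u.2.2 := rfl
  rw [h1, h2, h3, v2_comm _ (H315.e13 u.2.1) (H315.e12 u.1)]
  congr 2 <;> ring

/-- **the weight `W_g` is a weight functional** -/
theorem wf_wG {δ : ℝ} (hδ : 0 ≤ δ) : Wf (fun K p u => wG δ (H315.cube3 K p) u) where
  uq_le c K x y u q := by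
    unfold wG
    rw [H315.card_cube3, H315.card_cube3]
    exact mul_le_mul_of_nonneg_left (pG_uq_le c K x y u q) (by positivity)
  t12 K p u := by unfold wG; rw [pG_t12, H315.card_cube3, H315.card_cube3]
  t23 K p u := by unfold wG; rw [pG_t23, H315.card_cube3, H315.card_cube3]

end

end Vale.Agent.P141.H238
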