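import Vale.Agent.P141.H347.TrD
import Vale.Agent.P141.H238.WfG
import Vale.Agent.P141.H238.SysG

/-!
# P141: the density of the weight `W_g`, local weights of `sysG`

`gD δ : Dens`, `gD_sum : ∑ y ∈ cube3 k p, D k y u = wG δ (cube3 k p) u`, `wf_gD`, `lwG`.
-/

namespace Vale.Agent.P141.H238

open Finset Vale.Agent.P141.H315 Vale.Agent.P141.PL.H318
open Vale.Agent.P141.PL.H315 (cube3 mem_cube3 gz card_cube3 atm e12 e13 e23 Tri)
open Vale.Agent.P141.PL.H95 (gr)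
open Vale.Agent.P141.PL (Pt)
open Vale.Agent.P141.H347 (Dens LW lwD lwt cd)
open Vale.Agent.P141.H347.Tr (Wf)

noncomputable section

/-- The density of the weight `wG`. -/
def gD (hs : SuperG) (δ : ℝ) (hδ : 0 ≤ δ) : Dens where
  D k y u := δ * pG (cube3 k y) u
  nonneg k y u := mul_nonneg hδ (pG_nonneg _ _)
  const k y y' u h := by rw [show cube3 k y' = cube3 k y from gz.eq_of_mem k y y' h]
  step k p u := by
    have h1 := hs hδ (Nat.le_succ k) p u
    have e1 : ∀ y ∈ cube3 (k + 1) p, (8 ^ k : ℝ)⁻¹ * wG δ (cube3 k y) u =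
        δ * pG (cube3 k y) u := by
      intro y _
      unfold wG
      rw [card_cube3]
      push_cast
      have h8 : (8 : ℝ) ^ k ≠ 0 := by positivity
      field_simp
    have e2 : ∀ y ∈ cube3 (k + 1) p, δ * pG (cube3 (k + 1) y) u =
        δ * pG (cube3 (k + 1) p) u := by
      intro y hy
      rw [show cube3 (k + 1) y = cube3 (k + 1) p from gz.eq_of_mem (k + 1) p y hy]
    rw [sum_congr rfl e1] at h1
    rw [sum_congr rfl e2, sum_const, nsmul_eq_mul]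
    refine h1.trans (le_of_eq ?_)
    unfold wG
    ring

theorem gD_sum (hs : SuperG) {δ : ℝ} (hδ : 0 ≤ δ) (k : ℕ) (p : Pt) (u : Tri) :
    ∑ y ∈ cube3 k p, (gD hs δ hδ).D k y u = wG δ (cube3 k p) u := by
  rw [(gD hs δ hδ).ext_sum k p u]
  unfold wG gD
  ring

theorem wf_gD (hs : SuperG) {δ : ℝ} (hδ : 0 ≤ δ) :
    Wf fun K p u => ∑ y ∈ cube3 K p, (gD hs δ hδ).D K y u := by
  have := wf_wG hδ
  simpa only [gD_sum] using this

/-- The local weights of the system `sysG`. -/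
def lwG (hs : SuperG) (c0 : ℕ) (σ : ℤ) (c : Pt) (hc : csz c ≤ 2 ^ c0) (δ : ℝ) (hδ : 0 < δ) :
    LW (sysG hs c0 σ c hc δ hδ) :=
  lwD (gD hs δ hδ.le) c0 σ c (sysG hs c0 σ c hc δ hδ)
    fun j _ i => (gD_sum hs hδ.le j i.1 i.2).le

theorem lwG_ω (hs : SuperG) {c0 : ℕ} {σ : ℤ} {c : Pt} (hc : csz c ≤ 2 ^ c0) {δ : ℝ} (hδ : 0 < δ)
    (j k : ℕ) (s : ℤ) (i : Pt × Tri) :
    (lwG hs c0 σ c hc δ hδ).ω j k s i * cd (gr c0 σ) k s =
      lwt (gD hs δ hδ.le) c0 σ c j k s i := by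
  have h2 : (0 : ℝ) < ((gr c0 σ).cube k s).card := by
    exact_mod_cast card_pos.mpr ⟨_, (gr c0 σ).mem _ _⟩
  show lwt (gD hs δ hδ.le) c0 σ c j k s i / cd (gr c0 σ) k s * cd (gr c0 σ) k s = _
  unfold cd
  exact div_mul_cancel₀ _ h2.ne'

end

end Vale.Agent.P141.H238
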