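import Vale.Agent.P141.H238.DensG
import Vale.Agent.P141.H115g.WGb
import Vale.Agent.P141.H628.BirthG

/-!
# P141, line W, weight `W_g`: the systems without hypotheses

* `superG : SuperG` (115's `wG_super238`);
* `sG`, `lG`, `sGT`: the scalar system, its local weights, the total system;
* `l2Bd_sG`: 347's `L2Bd` (628's `l2Bd_ofG`).
-/

namespace Vale.Agent.P141.H238

open Finset Vale.Agent.P141.H315 Vale.Agent.P141.PL.H318
open Vale.Agent.P141.PL.H315 (cube3 Tri)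
open Vale.Agent.P141.PL.H95 (gr)
open Vale.Agent.P141.PL (Pt)
open Vale.Agent.P141.H347 (LW L2Bd)
open Vale.Agent.P141.H297 (Mix)
open Vale.Agent.P141.H736 (PSys)

noncomputable section

theorem superG : SuperG := fun hδ _ _ hkl p u =>
  Vale.Agent.P141.H115g.wG_super238 hδ hkl p u

variable (c0 : ℕ) (σ : ℤ) (c : Pt) (hc : csz c ≤ 2 ^ c0) (δ : ℝ) (hδ : 0 < δ)

/-- the scalar system with the weight `wG` -/
def sG : CSys (gr c0 σ) (Pt × Tri) := sysG superG c0 σ c hc δ hδ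

/-- its local weights -/
def lG : LW (sG c0 σ c hc δ hδ) := lwG superG c0 σ c hc δ hδ

@[simp] theorem sG_a (k : ℕ) (i : Pt × Tri) : (sG c0 σ c hc δ hδ).a k i = a1 c k i := rfl

@[simp] theorem sG_W (k : ℕ) (Q : Finset ℤ) (i : Pt × Tri) :
    (sG c0 σ c hc δ hδ).W k Q i = wG δ (cube3 k i.1) i.2 := rfl

theorem mix_sG {Cg : ℝ} (hg : GlueG Cg) : Mix (sG c0 σ c hc δ hδ) Cg :=
  mix_sysG superG c0 σ c hc δ hδ hg

theorem l2Bd_sG (h1 : c.1 ≠ 0) (h2 : c.2.1 ≠ 0) (h3 : c.2.2 ≠ 0) :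
    L2Bd (sG c0 σ c hc δ hδ) (2 ^ c0 / δ) :=
  Vale.Agent.P141.H628.l2Bd_ofG h1 h2 h3 hδ _ (fun _ _ => rfl) fun _ _ _ => le_rfl

variable {ι : Type*}

/-- the total system with the weight `wG` -/
def sGT (P : PSys (gr c0 σ) ι) : CSys (gr c0 σ) ((Pt × Tri) ⊕ ι) :=
  sysGT superG c0 σ c hc δ hδ P

/-- its local weights -/
def lGT (P : PSys (gr c0 σ) ι) : LW (sGT c0 σ c hc δ hδ P) :=
  lwGT superG c0 σ c hc δ hδ (lG c0 σ c hc δ hδ) P

theorem mix_sGT {Cg : ℝ} (hg : GlueG Cg) (P : PSys (gr c0 σ) ι) {C : ℝ} (hC : Cg ≤ C)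
    (hC' : P.C ≤ C) : Mix (sGT c0 σ c hc δ hδ P) C :=
  mix_sysGT superG c0 σ c hc δ hδ hg P hC hC'

end

end Vale.Agent.P141.H238
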