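import Vale.Agent.P141.H482.LCap
import Vale.Agent.P141.H408.SkelTI3

/-!
# P141, line (A), (TI): the caps of the increasing part in the gauge

* `lCapG : H408.LCapG`.
-/

namespace Vale.Agent.P141.H238.LCapG

open Finset Matrix
open Vale.Agent.P075 (Ix val)
open Vale.Agent.P141.H103 (QW)

noncomputable section

open scoped Classical

/-- a cap of twice a Gram matrix -/
theorem psd_two {n : Type*} [Fintype n] [DecidableEq n] {c : ℝ} (hc : 0 ≤ c)
    {X : Matrix n n ℝ} (h : (c • (1 : Matrix n n ℝ) - X).PosSemidef) :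
    ((4 * c) • (1 : Matrix n n ℝ) - (2 : ℝ) • X).PosSemidef := by
  have h1 := (PosSemidef.one (n := n) (R := ℝ)).smul (mul_nonneg (zero_le_two (α := ℝ)) hc)
  have h2 := h1.add (h.smul (zero_le_two (α := ℝ)))
  have e : (2 * c) • (1 : Matrix n n ℝ) + (2 : ℝ) • (c • (1 : Matrix n n ℝ) - X) =
      (4 * c) • (1 : Matrix n n ℝ) - (2 : ℝ) • X := by
    ext i j
    simp only [Matrix.add_apply, Matrix.sub_apply, Matrix.smul_apply, smul_eq_mul]
    ring
  rwa [e] at h2

/-- **LEAF: the caps of the increasing part, in the gauge.** -/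
theorem lCapG : H408.LCapG := by
  refine H408.PairQ.toU (H408.PairQ.imp H482.LCap.lcap408 ?_)
  intro ι _ _ p n ez F1 F2 F3 o K x s r U g u v Q1 Q2 Q3 X h
  refine ⟨h.capA, ?_, h.capC⟩
  intro x0 k _ m _
  have h1 := H482.LCap.psd_capS (H482.LCap.capB_c p s r U K u F3 Q3 x0 k m.2.2 m.2.1)
  have h2 := psd_two (sq_nonneg _) h1
  have e : H408.tauI p s r ^ 2 = 4 * p.th s r ^ 2 := by
    unfold H408.tauI
    ring
  rw [e]
  exact h2

end

end Vale.Agent.P141.H238.LCapG
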