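import Vale.Agent.P141.H238.GDef
import Vale.Agent.P141.PL.H318.Sys1

/-!
# P141, line W, weight `W_g`: non-degeneracy

`abs_atm_le_pG : |atm u y| ≤ |Q| pG Q u` for `y ∈ Q`; `nondeg_a1_G`.
-/

namespace Vale.Agent.P141.H238

open Finset
open Vale.Agent.P141.H315 (dot)
open Vale.Agent.P141.PL (Pt)
open Vale.Agent.P141.PL.H315 (avg avg_nonneg e12 e13 e23 Tri atm cube3 gz card_cube3)
open Vale.Agent.P141.H922 (n2 n2_nonneg)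
open Vale.Agent.P141.PL.H318 (a1 a1_sq_le)

noncomputable section

variable {X : Type*}

theorem le_card_avg {Q : Finset X} {f : X → ℝ} (hf : ∀ x ∈ Q, 0 ≤ f x) {y : X} (hy : y ∈ Q) :
    (Q.card : ℝ)⁻¹ * f y ≤ avg Q f := by
  unfold avg
  exact mul_le_mul_of_nonneg_left (single_le_sum hf hy) (by positivity)

/-- a value is bounded by the normalised `L²` norm -/
theorem abs_le_n2 {Q : Finset X} (f : X → ℝ) {y : X} (hy : y ∈ Q) :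
    √((Q.card : ℝ)⁻¹) * |f y| ≤ n2 Q f := by
  unfold n2
  refine Real.le_sqrt_of_sq_le ?_
  rw [mul_pow, Real.sq_sqrt (by positivity), sq_abs]
  exact le_card_avg (f := fun x => f x ^ 2) (fun _ _ => sq_nonneg _) hy

theorem le_v2 {Q : Finset X} (f g : X → ℝ) {y : X} (hy : y ∈ Q) :
    (Q.card : ℝ)⁻¹ * (f y ^ 2 * g y ^ 2) ≤ v2 Q f g :=
  le_card_avg (f := fun x => f x ^ 2 * g x ^ 2)
    (fun _ _ => mul_nonneg (sq_nonneg _) (sq_nonneg _)) hy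

theorem prod_bound {κ A B C na nb nc v1 v2 v3 : ℝ} (hκ : 0 ≤ κ) (hA : 0 ≤ A) (hB : 0 ≤ B)
    (hC : 0 ≤ C) (h1 : √κ * A ≤ na) (h2 : √κ * B ≤ nb) (h3 : √κ * C ≤ nc)
    (k1 : κ * (A ^ 2 * B ^ 2) ≤ v1) (k2 : κ * (A ^ 2 * C ^ 2) ≤ v2)
    (k3 : κ * (B ^ 2 * C ^ 2) ≤ v3) :
    κ * (A * B * C) ≤ (na * nb * nc) ^ (1 / 3 : ℝ) * (v1 * v2 * v3) ^ (1 / 6 : ℝ) := by
  have hs := Real.sqrt_nonneg κ
  have n1 : 0 ≤ √κ * A := mul_nonneg hs hA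
  have n2 : 0 ≤ √κ * B := mul_nonneg hs hB
  have n3 : 0 ≤ √κ * C := mul_nonneg hs hC
  have e1 : (√κ * A) * (√κ * B) * (√κ * C) ≤ na * nb * nc :=
    mul_le_mul (mul_le_mul h1 h2 n2 (n1.trans h1)) h3 n3
      (mul_nonneg (n1.trans h1) (n2.trans h2))
  have m1 : 0 ≤ κ * (A ^ 2 * B ^ 2) := by positivity
  have m2 : 0 ≤ κ * (A ^ 2 * C ^ 2) := by positivity
  have m3 : 0 ≤ κ * (B ^ 2 * C ^ 2) := by positivity
  have e2 : (κ * (A ^ 2 * B ^ 2)) * (κ * (A ^ 2 * C ^ 2)) * (κ * (B ^ 2 * C ^ 2)) ≤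
      v1 * v2 * v3 :=
    mul_le_mul (mul_le_mul k1 k2 m2 (m1.trans k1)) k3 m3
      (mul_nonneg (m1.trans k1) (m2.trans k2))
  have f1 := Real.rpow_le_rpow (by positivity) e1 (by norm_num : (0 : ℝ) ≤ 1 / 3)
  have f2 := Real.rpow_le_rpow (by positivity) e2 (by norm_num : (0 : ℝ) ≤ 1 / 6)
  refine le_trans (le_of_eq ?_) (mul_le_mul f1 f2 (by positivity) (by
    refine Real.rpow_nonneg ?_ _
    exact mul_nonneg (mul_nonneg (n1.trans h1) (n2.trans h2)) (n3.trans h3)))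
  -- the algebra: both sides are `κ A B C`
  have hP : 0 ≤ A * B * C := by positivity
  have g1 : (√κ * A) * (√κ * B) * (√κ * C) = (√κ) ^ 3 * (A * B * C) := by ring
  have g2 : (κ * (A ^ 2 * B ^ 2)) * (κ * (A ^ 2 * C ^ 2)) * (κ * (B ^ 2 * C ^ 2)) =
      (√κ) ^ 6 * (A * B * C) ^ 4 := by
    have : (√κ) ^ 6 = κ ^ 3 := by
      rw [show (√κ) ^ 6 = ((√κ) ^ 2) ^ 3 by ring, Real.sq_sqrt hκ]
    rw [this]; ring
  have q1 : ((√κ) ^ 3 * (A * B * C)) ^ (1 / 3 : ℝ) =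
      ((√κ) ^ 3) ^ (1 / 3 : ℝ) * (A * B * C) ^ (1 / 3 : ℝ) :=
    Real.mul_rpow (pow_nonneg hs 3) hP
  have q2 : ((√κ) ^ 6 * (A * B * C) ^ 4) ^ (1 / 6 : ℝ) =
      ((√κ) ^ 6) ^ (1 / 6 : ℝ) * ((A * B * C) ^ 4) ^ (1 / 6 : ℝ) :=
    Real.mul_rpow (pow_nonneg hs 6) (pow_nonneg hP 4)
  rw [g1, g2, q1, q2]
  have r1 : ((√κ) ^ 3 : ℝ) ^ (1 / 3 : ℝ) = √κ := by
    rw [← Real.rpow_natCast, ← Real.rpow_mul hs]; norm_num
  have r2 : ((√κ) ^ 6 : ℝ) ^ (1 / 6 : ℝ) = √κ := by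
    rw [← Real.rpow_natCast, ← Real.rpow_mul hs]; norm_num
  have r3 : ((A * B * C) ^ 4 : ℝ) ^ (1 / 6 : ℝ) = (A * B * C) ^ (2 / 3 : ℝ) := by
    rw [← Real.rpow_natCast, ← Real.rpow_mul hP]; norm_num
  rw [r1, r2, r3]
  have r4 : (A * B * C) ^ (1 / 3 : ℝ) * (A * B * C) ^ (2 / 3 : ℝ) = A * B * C := by
    rw [← Real.rpow_add_of_nonneg hP (by norm_num) (by norm_num)]
    norm_num
  calc κ * (A * B * C) = (√κ * √κ) * ((A * B * C) ^ (1 / 3 : ℝ) * (A * B * C) ^ (2 / 3 : ℝ)) := by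
        rw [Real.mul_self_sqrt hκ, r4]
    _ = _ := by ring

/-- **an atom is bounded by the number of points times the density of its weight** -/
theorem abs_atm_le_pG {Q : Finset Pt} {y : Pt} (hy : y ∈ Q) (u : Tri) :
    (Q.card : ℝ)⁻¹ * |atm u y| ≤ pG Q u := by
  have h := prod_bound (κ := (Q.card : ℝ)⁻¹) (A := |e12 u.1 y|) (B := |e13 u.2.1 y|)
    (C := |e23 u.2.2 y|) (by positivity) (abs_nonneg _) (abs_nonneg _) (abs_nonneg _)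
    (abs_le_n2 (e12 u.1) hy) (abs_le_n2 (e13 u.2.1) hy) (abs_le_n2 (e23 u.2.2) hy)
    (v1 := v2 Q (e12 u.1) (e13 u.2.1)) (v2 := v2 Q (e12 u.1) (e23 u.2.2))
    (v3 := v2 Q (e13 u.2.1) (e23 u.2.2))
    (by rw [sq_abs, sq_abs]; exact le_v2 (e12 u.1) (e13 u.2.1) hy)
    (by rw [sq_abs, sq_abs]; exact le_v2 (e12 u.1) (e23 u.2.2) hy)
    (by rw [sq_abs, sq_abs]; exact le_v2 (e13 u.2.1) (e23 u.2.2) hy)
  unfold atm
  rw [abs_mul, abs_mul]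
  exact h

theorem dot_atm_le_wG {δ : ℝ} (hδ : 0 < δ) {Q : Finset Pt} (hQ : Q.Nonempty) (u : Tri) :
    δ ^ 2 * (Q.card : ℝ)⁻¹ * dot Q (atm u) (atm u) ≤ wG δ Q u ^ 2 := by
  have hc : (0 : ℝ) < Q.card := by exact_mod_cast hQ.card_pos
  have h1 : ∀ y ∈ Q, atm u y * atm u y ≤ ((Q.card : ℝ) * pG Q u) ^ 2 := by
    intro y hy
    have h := abs_atm_le_pG hy u
    rw [inv_mul_le_iff₀ hc] at h
    rw [← sq, ← sq_abs]
    exact pow_le_pow_left₀ (abs_nonneg _) h 2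
  have h2 : dot Q (atm u) (atm u) ≤ Q.card * ((Q.card : ℝ) * pG Q u) ^ 2 := by
    unfold dot
    refine (sum_le_sum h1).trans ?_
    rw [sum_const, nsmul_eq_mul]
  calc δ ^ 2 * (Q.card : ℝ)⁻¹ * dot Q (atm u) (atm u)
      ≤ δ ^ 2 * (Q.card : ℝ)⁻¹ * (Q.card * ((Q.card : ℝ) * pG Q u) ^ 2) :=
        mul_le_mul_of_nonneg_left h2 (by positivity)
    _ = _ := by unfold wG; field_simp

theorem nondeg_a1_G {δ : ℝ} (hδ : 0 < δ) (c : Pt) (k : ℕ) (J : Finset ℤ) :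
    ∃ β : ℝ, 0 < β ∧ ∀ i : Pt × Tri,
      β * dot J (a1 c k i) (a1 c k i) ≤ wG δ (cube3 k i.1) i.2 ^ 2 := by
  refine ⟨δ ^ 2 * ((8 : ℝ) ^ k)⁻¹ * ((8 : ℝ) ^ k)⁻¹, by positivity, fun i => ?_⟩
  have h2 := dot_atm_le_wG hδ (Q := cube3 k i.1) ⟨i.1, gz.mem k i.1⟩ i.2
  have h3 := a1_sq_le c k i J
  rw [card_cube3] at h2
  push_cast at h2
  refine le_trans ?_ h2
  calc δ ^ 2 * ((8 : ℝ) ^ k)⁻¹ * ((8 : ℝ) ^ k)⁻¹ * dot J (a1 c k i) (a1 c k i)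
      ≤ δ ^ 2 * ((8 : ℝ) ^ k)⁻¹ * ((8 : ℝ) ^ k)⁻¹ *
        (8 ^ k * dot (cube3 k i.1) (atm i.2) (atm i.2)) :=
        mul_le_mul_of_nonneg_left h3 (by positivity)
    _ = _ := by field_simp

end

end Vale.Agent.P141.H238
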