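import Vale.Agent.P141.H579.Run1
import Vale.Agent.P141.H782.Max2
import Vale.Agent.P141.PL.H315.ConcreteProc
import Vale.Agent.P141.PL.Defs

/-!
# P141, weight `W_g`: the dyadic maximal function on the cubes of a face

`rM F l k q`: the maximum over the scales `k .. l` of the averages of `F` over the cubes around `q`.
* `weak3`: weak type `(1,1)`, constant `1`;
* `avg_rM_le`: Kolmogorov, `avg (rM F l 0)^(1-e) ≤ (1 + 4 / e) (avg F)^(1-e)`.
-/

namespace Vale.Agent.P141.H238

open Finset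
open Vale.Agent.P141.PL (Pt)
open Vale.Agent.P141.PL.H315 (avg avg_nonneg cube3 mem_cube3 gz card_cube3)
open Vale.Agent.P141.H579 (rmax rmax_nonneg le_rmax rmax_le rmax_anti rmax_self rmax_congr
  avg_zero_of)
open Vale.Agent.P141.H782 (kolmogorov)

noncomputable section

/-- running maximum of the local averages -/
def rM (F : Pt → ℝ) (l k : ℕ) (q : Pt) : ℝ := rmax (fun j => avg (cube3 j q) F) k l

theorem rM_nonneg (F : Pt → ℝ) (l k : ℕ) (q : Pt) : 0 ≤ rM F l k q := rmax_nonneg _ _ _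

theorem le_rM (F : Pt → ℝ) {l k j : ℕ} (h1 : k ≤ j) (h2 : j ≤ l) (q : Pt) :
    avg (cube3 j q) F ≤ rM F l k q := le_rmax (fun j => avg (cube3 j q) F) h1 h2

theorem rM_anti (F : Pt → ℝ) (l : ℕ) {k k' : ℕ} (h : k ≤ k') (q : Pt) :
    rM F l k' q ≤ rM F l k q := rmax_anti _ h _

theorem rM_top (F : Pt → ℝ) (hF : ∀ y, 0 ≤ F y) (l : ℕ) (q : Pt) :
    rM F l l q = avg (cube3 l q) F :=
  rmax_self (f := fun j => avg (cube3 j q) F) l (avg_nonneg fun y _ => hF y)

theorem cube3_eq_of_mem {k : ℕ} {q q' : Pt} (h : q' ∈ cube3 k q) : cube3 k q' = cube3 k q :=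
  gz.eq_of_mem k q q' h

theorem rM_congr (F : Pt → ℝ) {k l : ℕ} {q q' : Pt} (h : q' ∈ cube3 k q) :
    rM F l k q' = rM F l k q :=
  rmax_congr fun j h1 _ => by
    have : q' ∈ cube3 j q := gz.sub_le h1 q h
    simp only [cube3_eq_of_mem this]

/-- only the cube of scale `l` is seen -/
theorem rM_zero_of {F : Pt → ℝ} {l k : ℕ} {p q : Pt} (h : ∀ y ∈ cube3 l p, F y = 0)
    (hq : q ∈ cube3 l p) : rM F l k q = 0 := by
  refine le_antisymm (rmax_le le_rfl fun j _ h2 => ?_) (rM_nonneg _ _ _ _)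
  refine le_of_eq (avg_zero_of fun y hy => h y ?_)
  have h3 : y ∈ cube3 l q := gz.sub_le h2 q hy
  rwa [cube3_eq_of_mem hq] at h3

theorem rM_succ_le {F : Pt → ℝ} {l : ℕ} {q : Pt} {lam : ℝ} (hl : 0 ≤ lam)
    (h : avg (cube3 (l + 1) q) F ≤ lam) (h' : rM F l 0 q ≤ lam) : rM F (l + 1) 0 q ≤ lam := by
  refine rmax_le hl fun j _ h2 => ?_
  rcases Nat.lt_or_ge j (l + 1) with h3 | h3
  · exact (le_rM F (Nat.zero_le j) (by omega) q).trans h'
  · rw [show j = l + 1 by omega]
    exact h

/-- **weak type `(1,1)`** of the dyadic maximal function on a cube -/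
theorem weak3 {F : Pt → ℝ} (hF : ∀ y, 0 ≤ F y) {lam : ℝ} (hl : 0 < lam) : ∀ (l : ℕ) (p : Pt),
    ∑ q ∈ cube3 l p, (if lam < rM F l 0 q then lam else 0) ≤ ∑ q ∈ cube3 l p, F q := by
  intro l
  induction l with
  | zero =>
    intro p
    refine sum_le_sum fun q _ => ?_
    split_ifs with h
    · rw [rM_top F hF 0 q] at h
      have h1 : cube3 0 q = {q} := by
        ext y
        rw [mem_cube3, mem_singleton]
        constructor
        · rintro ⟨a, b, c⟩
          have e : ∀ s t : ℤ, s ∈ Vale.Agent.P141.PL.H315.iv 0 t → s = t := fun s t hst => by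
            rw [Vale.Agent.P141.PL.H315.mem_iv] at hst
            simpa using hst
          exact Prod.ext (e _ _ a) (Prod.ext (e _ _ b) (e _ _ c))
        · rintro rfl
          exact ⟨Vale.Agent.P141.PL.H315.self_mem_iv 0 _,
            Vale.Agent.P141.PL.H315.self_mem_iv 0 _, Vale.Agent.P141.PL.H315.self_mem_iv 0 _⟩
      rw [h1] at h
      unfold avg at h
      rw [card_singleton, sum_singleton] at h
      simp only [Nat.cast_one, inv_one, one_mul] at h
      exact h.le
    · exact hF q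
  | succ l ih =>
    intro p
    by_cases hb : lam < avg (cube3 (l + 1) p) F
    · have hc : (0 : ℝ) < (cube3 (l + 1) p).card := by
        exact_mod_cast card_pos.mpr ⟨p, gz.mem (l + 1) p⟩
      calc ∑ q ∈ cube3 (l + 1) p, (if lam < rM F (l + 1) 0 q then lam else 0)
          ≤ ∑ q ∈ cube3 (l + 1) p, lam := by
            refine sum_le_sum fun q _ => ?_
            split_ifs
            · exact le_rfl
            · exact hl.le
        _ = (cube3 (l + 1) p).card * lam := by rw [sum_const, nsmul_eq_mul]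
        _ ≤ (cube3 (l + 1) p).card * avg (cube3 (l + 1) p) F :=
            mul_le_mul_of_nonneg_left hb.le hc.le
        _ = _ := by unfold avg; rw [mul_inv_cancel_left₀ hc.ne']
    · push Not at hb
      refine gz.sum_le_sum_of_cubes (Nat.le_succ l) p _ _ fun y hy => ?_
      refine le_trans (sum_le_sum fun q hq => ?_) (ih y)
      have hs : gz.cube l y ⊆ gz.cube (l + 1) p := gz.cube_subset (Nat.le_succ l) hy
      have e : cube3 (l + 1) q = cube3 (l + 1) p := cube3_eq_of_mem (hs hq)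
      split_ifs with h1 h2 h2
      · exact le_rfl
      · exfalso
        push Not at h2
        exact absurd h1 (not_lt.2 (rM_succ_le hl.le (by rw [e]; exact hb) h2))
      · exact hl.le
      · exact le_rfl

/-- **Kolmogorov's inequality** for the dyadic maximal function on a cube -/
theorem avg_rM_le {F : Pt → ℝ} (hF : ∀ y, 0 ≤ F y) (l : ℕ) (p : Pt) {e : ℝ} (he : 0 < e)
    (he1 : e < 1) :
    avg (cube3 l p) (fun q => rM F l 0 q ^ (1 - e)) ≤
      (1 + 4 / e) * avg (cube3 l p) F ^ (1 - e) := by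
  have ha0 : 0 ≤ avg (cube3 l p) F := avg_nonneg fun w _ => hF w
  have hcard : (0 : ℝ) < (cube3 l p).card := by
    exact_mod_cast card_pos.mpr ⟨p, gz.mem l p⟩
  have hS : ∑ q ∈ cube3 l p, F q = (cube3 l p).card * avg (cube3 l p) F := by
    unfold avg
    rw [mul_inv_cancel_left₀ hcard.ne']
  have hweak : ∀ lam : ℝ, 0 < lam → lam * (((cube3 l p).filter fun q =>
      lam < rM F l 0 q).card : ℝ) ≤ (cube3 l p).card * avg (cube3 l p) F := by
    intro lam hl
    rw [← hS]
    refine le_trans (le_of_eq ?_) (weak3 hF hl l p)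
    rw [← sum_filter, sum_const, nsmul_eq_mul, mul_comm]
  have hne : (1 : ℝ) - e ≠ 0 := by linarith
  rcases ha0.eq_or_lt with ha | ha
  · have h0 : ∀ q ∈ cube3 l p, F q = 0 := by
      have h1 : ∑ q ∈ cube3 l p, F q = 0 := by rw [hS, ← ha, mul_zero]
      exact (sum_eq_zero_iff_of_nonneg fun q _ => hF q).1 h1
    rw [← ha, Real.zero_rpow hne, mul_zero]
    refine le_of_eq (avg_zero_of fun q hq => ?_)
    rw [rM_zero_of h0 hq, Real.zero_rpow hne]
  · have hk := kolmogorov (cube3 l p) (fun q => rM F l 0 q) (fun q _ => rM_nonneg _ _ _ _)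
      (B := (cube3 l p).card * avg (cube3 l p) F) (by positivity) hweak he he1.le ha
    have e1 : avg (cube3 l p) F * avg (cube3 l p) F ^ (-e) = avg (cube3 l p) F ^ (1 - e) := by
      rw [sub_eq_add_neg, Real.rpow_add ha, Real.rpow_one]
    have e2 : avg (cube3 l p) F ^ (1 - e) * ((cube3 l p).card : ℝ) +
        4 / e * ((cube3 l p).card * avg (cube3 l p) F) * avg (cube3 l p) F ^ (-e) =
        (cube3 l p).card * ((1 + 4 / e) * avg (cube3 l p) F ^ (1 - e)) := by
      rw [← e1]; ring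
    rw [e2] at hk
    unfold avg
    rw [inv_mul_le_iff₀ hcard]
    exact hk

/-- Kolmogorov for a power `s ≤ 1 - e` -/
theorem avg_rM_rpow_le {F : Pt → ℝ} (hF : ∀ y, 0 ≤ F y) (l : ℕ) (p : Pt) {s K : ℝ} (hs : 0 < s)
    (hK : 1 < K) (hsK : (1 - s) * (K - 1) ≥ 4) :
    avg (cube3 l p) (fun q => rM F l 0 q ^ s) ≤ K * avg (cube3 l p) F ^ s := by
  have h1 : 0 < 1 - s := by
    by_contra h
    push Not at h
    have : (1 - s) * (K - 1) ≤ 0 := mul_nonpos_of_nonpos_of_nonneg h (by linarith)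
    linarith
  have h2 := avg_rM_le hF l p h1 (by linarith)
  rw [sub_sub_cancel] at h2
  refine h2.trans (mul_le_mul_of_nonneg_right ?_ (Real.rpow_nonneg (avg_nonneg fun w _ => hF w) _))
  have : 4 / (1 - s) ≤ K - 1 := by
    rw [div_le_iff₀ h1]
    linarith
  linarith

end

end Vale.Agent.P141.H238
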