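import Vale.Agent.P141.H238.RunG1
import Vale.Agent.P141.H115g.WGb

/-!
# P141, weight `W_g`: the weight of the running maxima, tail estimate

`gM l u k q`: the product of the sixth roots of the running maxima over the scales `k .. l` of the six
averages `ga u i`; it dominates `gp (cube3 j q) u` (`= pG`) for `k ≤ j ≤ l`.
* `prodM_le`: all powers `θ i` up to `23 / 132`;
* `tail_gM`: summed over points of a cube at which one of the six running maxima is at least `L` times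
  the average over the cube, it is at most `97² L^(-1/132)` times the weight of the cube;
* `sum_gM_le`: the maximal function of the whole weight in `L¹`.
-/

namespace Vale.Agent.P141.H238

open Finset
open Vale.Agent.P141.PL (Pt)
open Vale.Agent.P141.PL.H315 (avg avg_nonneg cube3 mem_cube3 gz card_cube3 e12 e13 e23 Tri iv
  self_mem_iv)
open Vale.Agent.P141.H922 (n2 n2_nonneg avg_prod_le avg_mono avg_congr)
open Vale.Agent.P141.H115g (ga ga_nonneg gp gp_nonneg avg_prod_rpow_le)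

noncomputable section

/-! ### The weight of the running maxima -/

/-- **the weight of the running maxima** -/
def gM (l : ℕ) (u : Tri) (k : ℕ) (q : Pt) : ℝ := ∏ i, rM (ga u i) l k q ^ (1 / 6 : ℝ)

theorem gM_nonneg (l : ℕ) (u : Tri) (k : ℕ) (q : Pt) : 0 ≤ gM l u k q :=
  prod_nonneg fun _ _ => Real.rpow_nonneg (rM_nonneg _ _ _ _) _

theorem gM_anti (l : ℕ) (u : Tri) {k k' : ℕ} (h : k ≤ k') (q : Pt) :
    gM l u k' q ≤ gM l u k q :=
  prod_le_prod (fun _ _ => Real.rpow_nonneg (rM_nonneg _ _ _ _) _) fun i _ =>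
    Real.rpow_le_rpow (rM_nonneg _ _ _ _) (rM_anti (ga u i) l h q) (by norm_num)

/-- **the local weights are below the weight of the running maxima** -/
theorem gp_le_gM {l : ℕ} (u : Tri) {k j : ℕ} (h1 : k ≤ j) (h2 : j ≤ l) (q : Pt) :
    gp (cube3 j q) u ≤ gM l u k q := by
  unfold gp gM
  exact prod_le_prod (fun i _ => Real.rpow_nonneg (avg_nonneg fun y _ => ga_nonneg u i y) _)
    fun i _ => Real.rpow_le_rpow (avg_nonneg fun y _ => ga_nonneg u i y)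
      (le_rM (ga u i) h1 h2 q) (by norm_num)

theorem pG_le_gM {l : ℕ} (u : Tri) {k j : ℕ} (h1 : k ≤ j) (h2 : j ≤ l) (q : Pt) :
    pG (cube3 j q) u ≤ gM l u k q := by
  rw [Vale.Agent.P141.H115g.pG_eq238]
  exact gp_le_gM u h1 h2 q

/-- the running maxima only see the cube -/
theorem gM_congr {k l : ℕ} (u : Tri) {q q' : Pt} (h : q' ∈ cube3 k q) :
    gM l u k q' = gM l u k q := by
  unfold gM
  exact prod_congr rfl fun i _ => by rw [rM_congr (ga u i) h]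

/-- at the top scale it is the weight -/
theorem gM_top (l : ℕ) (u : Tri) (q : Pt) : gM l u l q = gp (cube3 l q) u := by
  unfold gM gp
  exact prod_congr rfl fun i _ => by rw [rM_top (ga u i) (ga_nonneg u i) l q]

theorem gM_top' (l : ℕ) (u : Tri) (q : Pt) : gM l u l q = pG (cube3 l q) u := by
  rw [gM_top, Vale.Agent.P141.H115g.pG_eq238]

/-! ### The edge functions only see two coordinates -/

theorem rM_coord {F : Pt → ℝ} {l : ℕ} {q q' : Pt}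
    (h : ∀ j ≤ l, avg (cube3 j q') F = avg (cube3 j q) F) : rM F l 0 q' = rM F l 0 q := by
  unfold rM
  exact Vale.Agent.P141.H579.rmax_congr fun j _ h2 => h j h2

theorem rM_e12 (v : ℤ × ℤ → ℝ) (l : ℕ) (q : Pt) :
    rM (fun y => e12 v y ^ 2) l 0 q = rM (fun y => e12 v y ^ 2) l 0 (q.1, q.2.1, 0) :=
  rM_coord fun j _ => by
    have h1 := Vale.Agent.P141.H922.avg_face12 j (fun w => v w ^ 2) q
    have h2 := Vale.Agent.P141.H922.avg_face12 j (fun w => v w ^ 2) (q.1, q.2.1, 0)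
    exact h1.trans h2.symm

theorem rM_e13 (v : ℤ × ℤ → ℝ) (l : ℕ) (q : Pt) :
    rM (fun y => e13 v y ^ 2) l 0 q = rM (fun y => e13 v y ^ 2) l 0 (q.1, 0, q.2.2) :=
  rM_coord fun j _ => by
    have h1 := Vale.Agent.P141.H922.avg_face13 j (fun w => v w ^ 2) q
    have h2 := Vale.Agent.P141.H922.avg_face13 j (fun w => v w ^ 2) (q.1, 0, q.2.2)
    exact h1.trans h2.symm

theorem rM_e23 (v : ℤ × ℤ → ℝ) (l : ℕ) (q : Pt) :
    rM (fun y => e23 v y ^ 2) l 0 q = rM (fun y => e23 v y ^ 2) l 0 (0, q.2.1, q.2.2) :=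
  rM_coord fun j _ => by
    have h1 := Vale.Agent.P141.H922.avg_face23 j (fun w => v w ^ 2) q
    have h2 := Vale.Agent.P141.H922.avg_face23 j (fun w => v w ^ 2) (0, q.2.1, q.2.2)
    exact h1.trans h2.symm

/-- Loomis–Whitney for powers of the three edge maxima -/
theorem avg_edges_le (l : ℕ) (p : Pt) (u : Tri) (a b c : ℝ) :
    avg (cube3 l p) (fun q => rM (ga u 0) l 0 q ^ a * rM (ga u 1) l 0 q ^ b *
        rM (ga u 2) l 0 q ^ c) ≤
      n2 (cube3 l p) (fun q => rM (ga u 0) l 0 q ^ a) *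
        n2 (cube3 l p) (fun q => rM (ga u 1) l 0 q ^ b) *
        n2 (cube3 l p) (fun q => rM (ga u 2) l 0 q ^ c) :=
  avg_prod_le (l := l) p
    (F12 := fun w => rM (ga u 0) l 0 (w.1, w.2, 0) ^ a)
    (F13 := fun w => rM (ga u 1) l 0 (w.1, 0, w.2) ^ b)
    (F23 := fun w => rM (ga u 2) l 0 (0, w.1, w.2) ^ c)
    (fun q => congrArg (fun t : ℝ => t ^ a) (rM_e12 u.1 l q))
    (fun q => congrArg (fun t : ℝ => t ^ b) (rM_e13 u.2.1 l q))
    (fun q => congrArg (fun t : ℝ => t ^ c) (rM_e23 u.2.2 l q))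

/-- the `L²` norm of a power of a running maximum -/
theorem n2_rM_le {F : Pt → ℝ} (hF : ∀ y, 0 ≤ F y) (l : ℕ) (p : Pt) {s : ℝ} (hs : 0 < s)
    (hs1 : s ≤ 23 / 60) :
    n2 (cube3 l p) (fun q => rM F l 0 q ^ s) ≤ 97 ^ (1 / 2 : ℝ) * avg (cube3 l p) F ^ s := by
  have ha := avg_nonneg (Q := cube3 l p) fun y _ => hF y
  have h1 := avg_rM_rpow_le hF l p (s := 2 * s) (K := 97) (by linarith) (by norm_num)
    (by nlinarith)
  unfold n2
  rw [Real.sqrt_eq_rpow]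
  have e1 : avg (cube3 l p) (fun q => (rM F l 0 q ^ s) ^ 2) =
      avg (cube3 l p) (fun q => rM F l 0 q ^ (2 * s)) := avg_congr fun q _ => by
    rw [← Real.rpow_natCast, ← Real.rpow_mul (rM_nonneg _ _ _ _)]
    congr 1
    push_cast
    ring
  rw [e1]
  have h2 := Real.rpow_le_rpow (avg_nonneg fun q _ => Real.rpow_nonneg (rM_nonneg F l 0 q) _) h1
    (by norm_num : (0 : ℝ) ≤ 1 / 2)
  refine h2.trans (le_of_eq ?_)
  rw [Real.mul_rpow (by norm_num) (Real.rpow_nonneg ha _), ← Real.rpow_mul ha]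
  congr 2
  ring

/-- **The product of powers of the six running maxima**, powers up to `23 / 132`. -/
theorem prodM_le (l : ℕ) (p : Pt) (u : Tri) (θ : Fin 6 → ℝ) (h0 : ∀ i, 0 < θ i)
    (h1 : ∀ i, θ i ≤ 23 / 132) :
    avg (cube3 l p) (fun q => ∏ i, rM (ga u i) l 0 q ^ θ i) ≤
      97 ^ 2 * ∏ i, avg (cube3 l p) (ga u i) ^ θ i := by
  set A : Fin 6 → ℝ := fun i => avg (cube3 l p) (ga u i) with hA
  have hA0 : ∀ i, 0 ≤ A i := fun i => avg_nonneg fun y _ => ga_nonneg u i y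
  have hM0 : ∀ i q, 0 ≤ rM (ga u i) l 0 q := fun i q => rM_nonneg _ _ _ _
  -- the four functions
  set f : Fin 4 → Pt → ℝ := ![fun q => rM (ga u 0) l 0 q ^ (11 / 5 * θ 0) *
      rM (ga u 1) l 0 q ^ (11 / 5 * θ 1) * rM (ga u 2) l 0 q ^ (11 / 5 * θ 2),
    fun q => rM (ga u 3) l 0 q ^ (11 / 2 * θ 3), fun q => rM (ga u 4) l 0 q ^ (11 / 2 * θ 4),
    fun q => rM (ga u 5) l 0 q ^ (11 / 2 * θ 5)] with hf
  set w : Fin 4 → ℝ := ![5 / 11, 2 / 11, 2 / 11, 2 / 11] with hw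
  have hw0 : ∀ i, 0 < w i := by intro i; fin_cases i <;> simp [hw]
  have hw1 : ∑ i, w i = 1 := by rw [Fin.sum_univ_four]; simp [hw]; norm_num
  have hf0 : ∀ i, ∀ x ∈ cube3 l p, 0 ≤ f i x := by
    intro i x _
    fin_cases i
    · exact mul_nonneg (mul_nonneg (Real.rpow_nonneg (hM0 _ _) _)
        (Real.rpow_nonneg (hM0 _ _) _)) (Real.rpow_nonneg (hM0 _ _) _)
    · exact Real.rpow_nonneg (hM0 _ _) _
    · exact Real.rpow_nonneg (hM0 _ _) _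
    · exact Real.rpow_nonneg (hM0 _ _) _
  have hH := avg_prod_rpow_le (cube3 l p) w hw0 hw1 f hf0
  have pw : ∀ (x : ℝ), 0 ≤ x → ∀ a b c : ℝ, a * b = c → (x ^ a) ^ b = x ^ c := by
    intro x hx a b c h
    rw [← Real.rpow_mul hx, h]
  have e1 : avg (cube3 l p) (fun q => ∏ i, rM (ga u i) l 0 q ^ θ i) =
      avg (cube3 l p) (fun x => ∏ i, f i x ^ w i) := by
    refine avg_congr fun q _ => ?_
    rw [Fin.prod_univ_six, Fin.prod_univ_four]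
    show _ = (rM (ga u 0) l 0 q ^ (11 / 5 * θ 0) * rM (ga u 1) l 0 q ^ (11 / 5 * θ 1) *
      rM (ga u 2) l 0 q ^ (11 / 5 * θ 2)) ^ (5 / 11 : ℝ) *
      (rM (ga u 3) l 0 q ^ (11 / 2 * θ 3)) ^ (2 / 11 : ℝ) *
      (rM (ga u 4) l 0 q ^ (11 / 2 * θ 4)) ^ (2 / 11 : ℝ) *
      (rM (ga u 5) l 0 q ^ (11 / 2 * θ 5)) ^ (2 / 11 : ℝ)
    have k : ∀ i, 0 ≤ rM (ga u i) l 0 q ^ (11 / 5 * θ i) := fun i =>
      Real.rpow_nonneg (hM0 _ _) _
    rw [Real.mul_rpow (mul_nonneg (k 0) (k 1)) (k 2), Real.mul_rpow (k 0) (k 1),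
      pw _ (hM0 0 q) _ _ (θ 0) (by ring), pw _ (hM0 1 q) _ _ (θ 1) (by ring),
      pw _ (hM0 2 q) _ _ (θ 2) (by ring), pw _ (hM0 3 q) _ _ (θ 3) (by ring),
      pw _ (hM0 4 q) _ _ (θ 4) (by ring), pw _ (hM0 5 q) _ _ (θ 5) (by ring)]
  rw [e1]
  refine hH.trans ?_
  rw [Fin.prod_univ_four, Fin.prod_univ_six]
  -- the edge part
  have hn : ∀ i : Fin 6, n2 (cube3 l p) (fun q => rM (ga u i) l 0 q ^ (11 / 5 * θ i)) ≤
      97 ^ (1 / 2 : ℝ) * A i ^ (11 / 5 * θ i) := fun i =>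
    n2_rM_le (ga_nonneg u i) l p (by have := h0 i; positivity) (by have := h1 i; linarith)
  have hE : avg (cube3 l p) (f 0) ^ w 0 ≤
      97 ^ (15 / 22 : ℝ) * (A 0 ^ θ 0 * A 1 ^ θ 1 * A 2 ^ θ 2) := by
    have h3 := avg_edges_le l p u (11 / 5 * θ 0) (11 / 5 * θ 1) (11 / 5 * θ 2)
    have h4 : avg (cube3 l p) (f 0) ≤ (97 ^ (1 / 2 : ℝ) * A 0 ^ (11 / 5 * θ 0)) *
        (97 ^ (1 / 2 : ℝ) * A 1 ^ (11 / 5 * θ 1)) * (97 ^ (1 / 2 : ℝ) * A 2 ^ (11 / 5 * θ 2)) := by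
      refine h3.trans ?_
      have z : ∀ i : Fin 6, 0 ≤ 97 ^ (1 / 2 : ℝ) * A i ^ (11 / 5 * θ i) := fun i =>
        mul_nonneg (by positivity) (Real.rpow_nonneg (hA0 i) _)
      exact mul_le_mul (mul_le_mul (hn 0) (hn 1) (n2_nonneg _ _) (z 0)) (hn 2) (n2_nonneg _ _)
        (mul_nonneg (z 0) (z 1))
    have h5 := Real.rpow_le_rpow (avg_nonneg (hf0 0)) h4 (by norm_num : (0 : ℝ) ≤ 5 / 11)
    show avg (cube3 l p) (f 0) ^ (5 / 11 : ℝ) ≤ _
    refine h5.trans (le_of_eq ?_)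
    have k : ∀ i, 0 ≤ A i ^ (11 / 5 * θ i) := fun i => Real.rpow_nonneg (hA0 i) _
    have e : (97 ^ (1 / 2 : ℝ) * A 0 ^ (11 / 5 * θ 0)) *
        (97 ^ (1 / 2 : ℝ) * A 1 ^ (11 / 5 * θ 1)) * (97 ^ (1 / 2 : ℝ) * A 2 ^ (11 / 5 * θ 2)) =
        97 ^ (3 / 2 : ℝ) * (A 0 ^ (11 / 5 * θ 0) * A 1 ^ (11 / 5 * θ 1) *
          A 2 ^ (11 / 5 * θ 2)) := by
      have : (97 : ℝ) ^ (3 / 2 : ℝ) = 97 ^ (1 / 2 : ℝ) * 97 ^ (1 / 2 : ℝ) * 97 ^ (1 / 2 : ℝ) := by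
        rw [← Real.rpow_add (by norm_num), ← Real.rpow_add (by norm_num)]
        norm_num
      rw [this]; ring
    rw [e, Real.mul_rpow (by positivity) (mul_nonneg (mul_nonneg (k 0) (k 1)) (k 2)),
      Real.mul_rpow (mul_nonneg (k 0) (k 1)) (k 2), Real.mul_rpow (k 0) (k 1),
      pw _ (hA0 0) _ _ (θ 0) (by ring), pw _ (hA0 1) _ _ (θ 1) (by ring),
      pw _ (hA0 2) _ _ (θ 2) (by ring), pw 97 (by norm_num) _ _ (15 / 22) (by norm_num)]
  -- the vertex part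
  have hV : ∀ i : Fin 6, avg (cube3 l p) (fun q => rM (ga u i) l 0 q ^ (11 / 2 * θ i)) ^
      (2 / 11 : ℝ) ≤ 97 ^ (2 / 11 : ℝ) * A i ^ θ i := by
    intro i
    have h6 := avg_rM_rpow_le (ga_nonneg u i) l p (s := 11 / 2 * θ i) (K := 97)
      (by have := h0 i; positivity) (by norm_num) (by have := h1 i; nlinarith)
    have h7 := Real.rpow_le_rpow (avg_nonneg fun q _ => Real.rpow_nonneg (hM0 i q) _) h6
      (by norm_num : (0 : ℝ) ≤ 2 / 11)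
    refine h7.trans (le_of_eq ?_)
    rw [Real.mul_rpow (by norm_num) (Real.rpow_nonneg (hA0 i) _),
      pw _ (hA0 i) _ _ (θ i) (by ring)]
  have hV3 : avg (cube3 l p) (f 1) ^ w 1 ≤ 97 ^ (2 / 11 : ℝ) * A 3 ^ θ 3 := hV 3
  have hV4 : avg (cube3 l p) (f 2) ^ w 2 ≤ 97 ^ (2 / 11 : ℝ) * A 4 ^ θ 4 := hV 4
  have hV5 : avg (cube3 l p) (f 3) ^ w 3 ≤ 97 ^ (2 / 11 : ℝ) * A 5 ^ θ 5 := hV 5
  have t : ∀ i, 0 ≤ A i ^ θ i := fun i => Real.rpow_nonneg (hA0 i) _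
  have z0 : 0 ≤ 97 ^ (15 / 22 : ℝ) * (A 0 ^ θ 0 * A 1 ^ θ 1 * A 2 ^ θ 2) :=
    mul_nonneg (by positivity) (mul_nonneg (mul_nonneg (t 0) (t 1)) (t 2))
  have zi : ∀ i, 0 ≤ 97 ^ (2 / 11 : ℝ) * A i ^ θ i := fun i => mul_nonneg (by positivity) (t i)
  have y : ∀ i : Fin 4, 0 ≤ avg (cube3 l p) (f i) ^ w i := fun i =>
    Real.rpow_nonneg (avg_nonneg (hf0 i)) _
  refine (mul_le_mul (mul_le_mul (mul_le_mul hE hV3 (y 1) z0) hV4 (y 2)
    (mul_nonneg z0 (zi 3))) hV5 (y 3) (mul_nonneg (mul_nonneg z0 (zi 3)) (zi 4))).trans ?_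
  have hc : (97 : ℝ) ^ (15 / 22 : ℝ) * 97 ^ (2 / 11 : ℝ) * 97 ^ (2 / 11 : ℝ) *
      97 ^ (2 / 11 : ℝ) ≤ 97 ^ 2 := by
    rw [← Real.rpow_add (by norm_num), ← Real.rpow_add (by norm_num),
      ← Real.rpow_add (by norm_num), ← Real.rpow_natCast]
    exact Real.rpow_le_rpow_of_exponent_le (by norm_num) (by norm_num)
  have hP : 0 ≤ A 0 ^ θ 0 * A 1 ^ θ 1 * A 2 ^ θ 2 * A 3 ^ θ 3 * A 4 ^ θ 4 * A 5 ^ θ 5 := by
    have t0 := t 0
    have t1 := t 1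
    have t2 := t 2
    have t3 := t 3
    have t4 := t 4
    have t5 := t 5
    positivity
  calc _ = ((97 : ℝ) ^ (15 / 22 : ℝ) * 97 ^ (2 / 11 : ℝ) * 97 ^ (2 / 11 : ℝ) *
        97 ^ (2 / 11 : ℝ)) *
        (A 0 ^ θ 0 * A 1 ^ θ 1 * A 2 ^ θ 2 * A 3 ^ θ 3 * A 4 ^ θ 4 * A 5 ^ θ 5) := by ring
    _ ≤ _ := mul_le_mul_of_nonneg_right hc hP

end

end Vale.Agent.P141.H238
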