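import Vale.Agent.P141.H238.RunG2

/-!
# P141, weight `W_g`: tail estimate for the weight of the running maxima

`BigG L l u p q`: one of the six running maxima at `q` is at least `L` times the average over the
cube of `p`.
* `tail_gM`: `∑_{q ∈ S} gM l u 0 q ≤ 97² L^(-1/132) 8^l gp (cube3 l p) u`, `S` a set of such points;
* `sum_gM_le`: all points of the cube, `97² 8^l gp (cube3 l p) u`.
-/

namespace Vale.Agent.P141.H238

open Finset
open Vale.Agent.P141.PL (Pt)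
open Vale.Agent.P141.PL.H315 (avg avg_nonneg cube3 mem_cube3 gz card_cube3 Tri)
open Vale.Agent.P141.H922 (avg_mono avg_congr)
open Vale.Agent.P141.H115g (ga ga_nonneg gp gp_nonneg)

noncomputable section

/-- **one of the six running maxima at `q` is at least `L` times the average over the cube of `p`** -/
def BigG (L : ℝ) (l : ℕ) (u : Tri) (p q : Pt) : Prop :=
  ∃ i, L * avg (cube3 l p) (ga u i) ≤ rM (ga u i) l 0 q

/-- one of the six local averages at a scale `j ≤ l` is at least `L` times the average -/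
theorem bigG_of {L : ℝ} {l : ℕ} {u : Tri} {p q : Pt} {j : ℕ} (hj : j ≤ l) {i : Fin 6}
    (h : L * avg (cube3 l p) (ga u i) ≤ avg (cube3 j q) (ga u i)) : BigG L l u p q :=
  ⟨i, h.trans (le_rM (ga u i) (Nat.zero_le j) hj q)⟩

theorem avg_le_rM_of_mem {F : Pt → ℝ} {l : ℕ} {p q : Pt} (hq : q ∈ cube3 l p) :
    avg (cube3 l p) F ≤ rM F l 0 q := by
  rw [← cube3_eq_of_mem hq]
  exact le_rM F (Nat.zero_le l) le_rfl q

/-- `L = 1`: every point of the cube -/
theorem bigG_one {l : ℕ} {u : Tri} {p q : Pt} (hq : q ∈ cube3 l p) : BigG 1 l u p q :=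
  ⟨0, by rw [one_mul]; exact avg_le_rM_of_mem hq⟩

theorem zero_of_avg {F : Pt → ℝ} (hF : ∀ y, 0 ≤ F y) {l : ℕ} {p : Pt}
    (h : avg (cube3 l p) F = 0) : ∀ y ∈ cube3 l p, F y = 0 := by
  have hc : (0 : ℝ) < (cube3 l p).card := by exact_mod_cast card_pos.2 ⟨p, gz.mem l p⟩
  unfold avg at h
  rcases mul_eq_zero.1 h with h2 | h2
  · exact absurd h2 (inv_ne_zero hc.ne')
  · exact (sum_eq_zero_iff_of_nonneg fun y _ => hF y).1 h2

/-- on a big point the product of the `δ`-th powers of the running maxima is large -/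
theorem prod_big {L δ : ℝ} (hδ : 0 < δ) (hL : 1 ≤ L) {l : ℕ} {u : Tri} {p q : Pt}
    (hq : q ∈ cube3 l p) (h : BigG L l u p q) :
    L ^ δ * ∏ i, avg (cube3 l p) (ga u i) ^ δ ≤ ∏ i, rM (ga u i) l 0 q ^ δ := by
  obtain ⟨i, hi⟩ := h
  have hL0 : 0 ≤ L := by linarith
  have hA0 : ∀ j, 0 ≤ avg (cube3 l p) (ga u j) := fun j => avg_nonneg fun y _ => ga_nonneg u j y
  rw [← mul_prod_erase univ _ (mem_univ i), ← mul_prod_erase univ (fun j =>
    rM (ga u j) l 0 q ^ δ) (mem_univ i), ← mul_assoc]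
  refine mul_le_mul ?_ (prod_le_prod (fun j _ => Real.rpow_nonneg (hA0 j) _) fun j _ =>
    Real.rpow_le_rpow (hA0 j) (avg_le_rM_of_mem hq) hδ.le)
    (prod_nonneg fun j _ => Real.rpow_nonneg (hA0 j) _) (Real.rpow_nonneg (rM_nonneg _ _ _ _) _)
  rw [← Real.mul_rpow hL0 (hA0 i)]
  exact Real.rpow_le_rpow (mul_nonneg hL0 (hA0 i)) hi hδ.le

/-- **Tail estimate for the weight of the running maxima.** -/
theorem tail_gM {L : ℝ} (hL : 1 ≤ L) (l : ℕ) (u : Tri) (p : Pt) {S : Finset Pt}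
    (hS : S ⊆ cube3 l p) (hB : ∀ q ∈ S, BigG L l u p q) :
    ∑ q ∈ S, gM l u 0 q ≤ 97 ^ 2 * L ^ (-(1 / 132) : ℝ) * 8 ^ l * gp (cube3 l p) u := by
  have hR : 0 ≤ 97 ^ 2 * L ^ (-(1 / 132) : ℝ) * 8 ^ l * gp (cube3 l p) u :=
    mul_nonneg (by positivity) (gp_nonneg _ _)
  have hA0 : ∀ j, 0 ≤ avg (cube3 l p) (ga u j) := fun j => avg_nonneg fun y _ => ga_nonneg u j y
  by_cases hz : ∃ i, avg (cube3 l p) (ga u i) = 0
  · obtain ⟨i, hi⟩ := hz
    refine le_trans (le_of_eq (sum_eq_zero fun q hq => ?_)) hR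
    unfold gM
    refine prod_eq_zero (mem_univ i) ?_
    rw [rM_zero_of (zero_of_avg (ga_nonneg u i) hi) (hS hq), Real.zero_rpow (by norm_num)]
  push Not at hz
  have hA : ∀ j, 0 < avg (cube3 l p) (ga u j) := fun j => lt_of_le_of_ne (hA0 j) (hz j).symm
  have hL0 : 0 < L := by linarith
  set D : ℝ := ∏ i, avg (cube3 l p) (ga u i) ^ (1 / 132 : ℝ) with hD
  have hDp : 0 < D := prod_pos fun i _ => Real.rpow_pos_of_pos (hA i) _
  have e1 : ∀ q, ∏ i, rM (ga u i) l 0 q ^ (23 / 132 : ℝ) =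
      gM l u 0 q * ∏ i, rM (ga u i) l 0 q ^ (1 / 132 : ℝ) := by
    intro q
    unfold gM
    rw [← prod_mul_distrib]
    refine prod_congr rfl fun i _ => ?_
    rw [← Real.rpow_add_of_nonneg (rM_nonneg _ _ _ _) (by norm_num) (by norm_num)]
    norm_num
  have e2 : ∏ i, avg (cube3 l p) (ga u i) ^ (23 / 132 : ℝ) = gp (cube3 l p) u * D := by
    unfold gp
    rw [hD, ← prod_mul_distrib]
    refine prod_congr rfl fun i _ => ?_
    rw [← Real.rpow_add_of_nonneg (hA0 i) (by norm_num) (by norm_num)]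
    norm_num
  have H : avg (cube3 l p) (fun q => ∏ i, rM (ga u i) l 0 q ^ (23 / 132 : ℝ)) ≤
      97 ^ 2 * (gp (cube3 l p) u * D) := by
    rw [← e2]
    exact prodM_le l p u (fun _ => 23 / 132) (fun _ => by norm_num) (fun _ => le_rfl)
  have h2 : ∑ q ∈ S, ∏ i, rM (ga u i) l 0 q ^ (23 / 132 : ℝ) ≤
      8 ^ l * (97 ^ 2 * (gp (cube3 l p) u * D)) := by
    rw [avg, card_cube3, inv_mul_le_iff₀ (by positivity)] at H
    push_cast at H
    exact (sum_le_sum_of_subset_of_nonneg hS fun q _ _ => prod_nonneg fun i _ =>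
      Real.rpow_nonneg (rM_nonneg _ _ _ _) _).trans H
  have h1 : (∑ q ∈ S, gM l u 0 q) * (L ^ (1 / 132 : ℝ) * D) ≤
      8 ^ l * (97 ^ 2 * (gp (cube3 l p) u * D)) := by
    refine le_trans ?_ h2
    rw [sum_mul]
    refine sum_le_sum fun q hq => ?_
    rw [e1]
    exact mul_le_mul_of_nonneg_left (prod_big (by norm_num) hL (hS hq) (hB q hq))
      (gM_nonneg _ _ _ _)
  have hLd : 0 < L ^ (1 / 132 : ℝ) := Real.rpow_pos_of_pos hL0 _
  have h3 : (∑ q ∈ S, gM l u 0 q) * L ^ (1 / 132 : ℝ) ≤ 8 ^ l * (97 ^ 2 * gp (cube3 l p) u) := by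
    refine le_of_mul_le_mul_right ?_ hDp
    calc (∑ q ∈ S, gM l u 0 q) * L ^ (1 / 132 : ℝ) * D =
          (∑ q ∈ S, gM l u 0 q) * (L ^ (1 / 132 : ℝ) * D) := by ring
      _ ≤ _ := h1
      _ = _ := by ring
  rw [Real.rpow_neg hL0.le]
  rw [← le_div_iff₀ hLd] at h3
  refine h3.trans (le_of_eq ?_)
  rw [div_eq_mul_inv]
  ring

/-- the same with the cardinality of the cube -/
theorem tail_gM_card {L : ℝ} (hL : 1 ≤ L) (l : ℕ) (u : Tri) (p : Pt) {S : Finset Pt}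
    (hS : S ⊆ cube3 l p) (hB : ∀ q ∈ S, BigG L l u p q) :
    ∑ q ∈ S, gM l u 0 q ≤
      97 ^ 2 * L ^ (-(1 / 132) : ℝ) * (cube3 l p).card * gp (cube3 l p) u := by
  refine (tail_gM hL l u p hS hB).trans (le_of_eq ?_)
  rw [card_cube3]
  push_cast
  ring

/-- the same for `pG` -/
theorem tail_gM_pG {L : ℝ} (hL : 1 ≤ L) (l : ℕ) (u : Tri) (p : Pt) {S : Finset Pt}
    (hS : S ⊆ cube3 l p) (hB : ∀ q ∈ S, BigG L l u p q) :
    ∑ q ∈ S, gM l u 0 q ≤
      97 ^ 2 * L ^ (-(1 / 132) : ℝ) * (cube3 l p).card * pG (cube3 l p) u := by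
  rw [Vale.Agent.P141.H115g.pG_eq238]
  exact tail_gM_card hL l u p hS hB

/-- all points: `L = 1` -/
theorem sum_gM_le (l : ℕ) (u : Tri) (p : Pt) :
    ∑ q ∈ cube3 l p, gM l u 0 q ≤ 97 ^ 2 * (cube3 l p).card * gp (cube3 l p) u := by
  refine (tail_gM_card le_rfl l u p Subset.rfl fun q hq => bigG_one hq).trans (le_of_eq ?_)
  rw [Real.one_rpow, mul_one]

theorem sum_gM_le_pG (l : ℕ) (u : Tri) (p : Pt) :
    ∑ q ∈ cube3 l p, gM l u 0 q ≤ 97 ^ 2 * (cube3 l p).card * pG (cube3 l p) u := by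
  rw [Vale.Agent.P141.H115g.pG_eq238]
  exact sum_gM_le l u p

end

end Vale.Agent.P141.H238
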